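import Vale.Agent.P212H52.Rows
import Mathlib.Analysis.SpecialFunctions.Bernstein
import Mathlib.Topology.ContinuousMap.SecondCountableSpace

/-! Unitary equivalences and operator homotopies are homotopies. -/

namespace Vale.Agent.P212H86

open Vale.Agent.P212 Vale.Agent.P212Z Vale.Agent.P212Z.Kas Vale.Agent.P212H ContinuousLinearMap
  Filter Topology
open scoped ComplexOrder

noncomputable section

variable {H K : Type} [NormedAddCommGroup H] [InnerProductSpace ℂ H] [CompleteSpace H]
  [NormedAddCommGroup K] [InnerProductSpace ℂ K] [CompleteSpace K]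

theorem fin_rank {T : H →L[ℂ] H} (hT : IsCompactOperator T) {ε : ℝ} (hε : 0 < ε) :
    ∃ (n : ℕ) (x y : Fin n → H), ∀ z, ‖T z - ∑ i, inner ℂ (y i) z • x i‖ ≤ ε * ‖z‖ := by
  obtain ⟨C, hC, h1⟩ := IsCompactOperator.image_closedBall_subset_compact (f := (T : H →ₗ[ℂ] H)) hT 1
  obtain ⟨s, -, hs, h2⟩ := hC.finite_cover_balls hε
  let U := Submodule.span ℂ s
  have : FiniteDimensional ℂ U := FiniteDimensional.span_of_finite ℂ hs
  let e := stdOrthonormalBasis ℂ U
  have h3 : ‖T - U.starProjection ∘L T‖ ≤ ε := opNorm_le_of_unit_norm hε.le fun z hz => by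
    obtain ⟨v, hv, h4⟩ := Set.mem_iUnion₂.1 (h2 (h1 ⟨z, by simp [hz], rfl⟩))
    change ‖T z - U.starProjection (T z)‖ ≤ ε
    rw [Submodule.starProjection_minimal]
    refine (ciInf_le ⟨0, Set.forall_mem_range.mpr fun _ => norm_nonneg _⟩
      (⟨v, Submodule.subset_span hv⟩ : U)).trans ?_
    rw [← dist_eq_norm]
    exact (Metric.mem_ball.1 h4).le
  refine ⟨_, fun i => e i, fun i => adjoint T (e i), fun z => ?_⟩
  have h5 := (T - U.starProjection ∘L T).le_of_opNorm_le h3 z
  rw [e.starProjection_eq_sum_rankOne] at h5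
  simpa [adjoint_inner_left, sum_apply] using h5

variable (H) in
/-- The module of continuous paths. -/
abbrev PE : Type := C(unitInterval, H)

/-- The inner product. -/
def ip (x y : PE H) : CI := ⟨fun t => inner ℂ (x t) (y t), x.continuous.inner y.continuous⟩

/-- The Hilbert module structure. -/
@[reducible] def cm : CStarModule CI (PE H) where
  inner := ip
  inner_add_right := ContinuousMap.ext fun _ => inner_add_right _ _ _
  inner_self_nonneg {x} t := by
    change (0 : ℂ) ≤ inner ℂ (x t) (x t)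
    rw [inner_self_eq_norm_sq_to_K]
    exact pow_nonneg (Complex.zero_le_real.2 (norm_nonneg (x t))) 2
  inner_self {x} := ⟨fun h => ContinuousMap.ext fun t =>
    inner_self_eq_zero.1 (DFunLike.congr_fun h t), fun h => by
      subst h
      exact ContinuousMap.ext fun _ => inner_zero_left _⟩
  inner_op_smul_right := ContinuousMap.ext fun _ => inner_smul_right _ _ _
  inner_smul_right_complex := ContinuousMap.ext fun _ => inner_smul_right _ _ _
  star_inner _ _ := ContinuousMap.ext fun _ => inner_conj_symm _ _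
  norm_eq_sqrt_norm_inner_self x := by
    have h : ∀ t, ‖ip x x t‖ = ‖x t‖ ^ 2 := fun t => by
      change ‖inner ℂ (x t) (x t)‖ = _
      rw [inner_self_eq_norm_sq_to_K]
      simp
    refine le_antisymm ((ContinuousMap.norm_le _ (Real.sqrt_nonneg _)).2 fun t =>
      Real.le_sqrt_of_sq_le ((h t).symm.trans_le ((ip x x).norm_coe_le_norm t)))
      (Real.sqrt_le_iff.2 ⟨norm_nonneg _, (ContinuousMap.norm_le _ (sq_nonneg _)).2 fun t => ?_⟩)
    rw [h]
    exact pow_le_pow_left₀ (norm_nonneg _) (x.norm_coe_le_norm t) 2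

attribute [local instance] cm

/-- The operator of a norm continuous family. -/
def op (T : C(unitInterval, H →L[ℂ] H)) : PE H →L[ℂ] PE H :=
  LinearMap.mkContinuous
    { toFun x := ⟨fun t => T t (x t), T.continuous.clm_apply x.continuous⟩
      map_add' x y := ContinuousMap.ext fun t => (T t).map_add (x t) (y t)
      map_smul' c x := ContinuousMap.ext fun t => (T t).map_smul c (x t) } ‖T‖ fun x =>
    (ContinuousMap.norm_le _ (by positivity)).2 fun t => ((T t).le_opNorm _).trans
      (mul_le_mul (T.norm_coe_le_norm t) (x.norm_coe_le_norm t) (norm_nonneg _) (norm_nonneg _))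

theorem op_cpt {S : PE H →L[ℂ] PE H} (T : unitInterval → H →L[ℂ] H) (hc : Continuous T)
    (hT : ∀ t, IsCompactOperator (T t)) (hS : ∀ x t, S x t = T t (x t)) : IsCpt CI S := by
  intro ε hε
  obtain ⟨n, hn⟩ := ((Metric.tendsto_nhds.1 (bernsteinApproximation_uniform
    (⟨T, hc⟩ : C(unitInterval, H →L[ℂ] H)))) (ε / 2) (by positivity)).exists
  choose m x y h using fun k : Fin (n + 1) => fin_rank (hT (bernstein.z k)) (half_pos hε)
  let e := (Fintype.equivFin (Σ k : Fin (n + 1), Fin (m k))).symm
  let X : (Σ k : Fin (n + 1), Fin (m k)) → PE H := fun p =>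
    bernstein n p.1 • ContinuousMap.const _ (x p.1 p.2)
  let Y : (Σ k : Fin (n + 1), Fin (m k)) → PE H := fun p => ContinuousMap.const _ (y p.1 p.2)
  refine ⟨_, fun i => X (e i), fun i => Y (e i), fun z => ?_⟩
  rw [e.sum_comp fun p => inner CI (Y p) z • X p]
  refine (ContinuousMap.norm_le _ (by positivity)).2 fun t => ?_
  have h1 : ‖bernsteinApproximation n (⟨T, hc⟩ : C(unitInterval, H →L[ℂ] H)) t - T t‖ ≤ ε / 2 := by
    rw [← dist_eq_norm]
    exact (ContinuousMap.dist_apply_le_dist (g := ⟨T, hc⟩) t).trans hn.le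
  have h2 : (S z - ∑ p, inner CI (Y p) z • X p) t =
      -(bernsteinApproximation n (⟨T, hc⟩ : C(unitInterval, H →L[ℂ] H)) t - T t) (z t) +
        ∑ k : Fin (n + 1), bernstein n k t •
          (T (bernstein.z k) (z t) - ∑ i, inner ℂ (y k i) (z t) • x k i) := by
    rw [ContinuousMap.sub_apply, hS, ContinuousMap.sum_apply, Fintype.sum_sigma,
      bernsteinApproximation.apply]
    simp only [smul_sub, Finset.sum_sub_distrib, Finset.smul_sum, sub_apply,
      sum_apply, smul_apply, ContinuousMap.coe_mk]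
    have h3 : ∀ k i, (inner CI (Y ⟨k, i⟩) z • X ⟨k, i⟩) t =
        bernstein n k t • inner ℂ (y k i) (z t) • x k i := fun k i => smul_comm _ _ _
    simp only [h3]
    abel
  have h4 : ‖z t‖ ≤ ‖z‖ := z.norm_coe_le_norm t
  have h5 : ‖∑ k : Fin (n + 1), bernstein n k t •
      (T (bernstein.z k) (z t) - ∑ i, inner ℂ (y k i) (z t) • x k i)‖ ≤ ε / 2 * ‖z t‖ := by
    refine (norm_sum_le_of_le _ fun k _ => (norm_smul_le _ _).trans
      (mul_le_mul_of_nonneg_left (h k (z t)) (norm_nonneg _))).trans_eq ?_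
    simp only [Real.norm_of_nonneg bernstein_nonneg]
    rw [← Finset.sum_mul, bernstein.probability, one_mul]
  rw [h2]
  refine (norm_add_le_of_le ((norm_neg _).trans_le (le_of_opNorm_le _ h1 _)) h5).trans ?_
  nlinarith

variable {A : Type} [NonUnitalCStarAlgebra A]

/-- The module of an operator homotopy. -/
def km (a : Fredholm A H) (F : C(unitInterval, H →L[ℂ] H))
    (h : ∀ t, IsFredholm a.γ a.ρ (F t)) : KMod CI (PE H) A where
  γ := op (.const _ a.γ)
  φ :=
    { toFun f := op (.const _ (a.ρ f))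
      map_smul' c f := by
        ext x t
        change a.ρ (c • f) (x t) = c • a.ρ f (x t)
        rw [map_smul]
        rfl
      map_zero' := by
        ext x t
        change a.ρ 0 (x t) = 0
        rw [map_zero]
        rfl
      map_add' f g := by
        ext x t
        change a.ρ (f + g) (x t) = a.ρ f (x t) + a.ρ g (x t)
        rw [map_add]
        rfl
      map_mul' f g := by
        ext x t
        change a.ρ (f * g) (x t) = a.ρ f (a.ρ g (x t))
        rw [map_mul]
        rfl }
  F := op F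
  F' := op (star F)
  complete := inferInstance
  gen := by
    have := a.prop.separable
    have : SecondCountableTopology H := UniformSpace.secondCountable_of_separable H
    obtain ⟨u, hu⟩ := TopologicalSpace.exists_dense_seq (PE H)
    refine ⟨u, Dense.mono ?_ hu⟩
    rintro _ ⟨n, rfl⟩
    exact Submodule.subset_span ⟨1, n, ContinuousMap.ext fun t => (one_smul ℂ (u n t)).symm⟩
  γ_adj x y := ContinuousMap.ext fun t => by
    change inner ℂ (a.γ (x t)) (y t) = inner ℂ (x t) (a.γ (y t))
    rw [← adjoint_inner_right, ← star_eq_adjoint, a.prop.γ_star]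
  γ_sq := by
    ext x t
    exact DFunLike.congr_fun a.prop.γ_sq (x t)
  φ_adj f x y := ContinuousMap.ext fun t => by
    change inner ℂ (a.ρ f (x t)) (y t) = inner ℂ (x t) (a.ρ (star f) (y t))
    rw [← adjoint_inner_right, ← star_eq_adjoint, map_star]
  F_adj x y := ContinuousMap.ext fun t => (adjoint_inner_right (F t) (x t) (y t)).symm
  even f := by
    ext x t
    exact DFunLike.congr_fun (a.prop.even f) (x t)
  odd := by
    ext x t
    exact DFunLike.congr_fun (h t).odd (x t)
  sq f := op_cpt (fun t => (F t * F t - 1) * a.ρ f)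
    (((F.continuous.mul F.continuous).sub continuous_const).mul continuous_const)
    (fun t => (h t).sq f) fun _ _ => rfl
  sa f := op_cpt (fun t => (F t - star (F t)) * a.ρ f)
    ((F.continuous.sub F.continuous.star).mul continuous_const) (fun t => (h t).sa f) fun _ _ => rfl
  comm f := op_cpt (fun t => F t * a.ρ f - a.ρ f * F t)
    ((F.continuous.mul continuous_const).sub (continuous_const.mul F.continuous))
    (fun t => (h t).comm f) fun _ _ => rfl

/-- Evaluation. -/
def evl (t : unitInterval) : PE H →ₗ[ℂ] H where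
  toFun x := x t
  map_add' _ _ := rfl
  map_smul' _ _ := rfl

omit [CompleteSpace H] in
theorem evl_surj (t : unitInterval) : Function.Surjective (evl (H := H) t) :=
  fun v => ⟨.const _ v, rfl⟩

theorem km_eval (a : Fredholm A H) (F : C(unitInterval, H →L[ℂ] H))
    (h : ∀ t, IsFredholm a.γ a.ρ (F t)) (t : unitInterval) {c : Fredholm A H} (h1 : c.γ = a.γ)
    (h2 : c.ρ = a.ρ) (h3 : c.F = F t) : IsEval (km a F h) t c (evl t) :=
  ⟨(evl_surj t).denseRange, fun _ _ => rfl, fun _ => by rw [h1]; rfl, fun _ _ => by rw [h2]; rfl,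
    fun _ => by rw [h3]; rfl⟩

theorem hty {E : Type} [NormedAddCommGroup E] [NormedSpace ℂ E] [SMul CI E] [CStarModule CI E]
    {m : KMod CI E A} {a : Fredholm A H} {b : Fredholm A K} {π : E →ₗ[ℂ] H} {π' : E →ₗ[ℂ] K}
    (h : IsEval m 0 a π) (h' : IsEval m 1 b π') : Htpy (⟨H, a⟩ : Cyc A) ⟨K, b⟩ :=
  .mk a b ⟨E, _, _, _, _, m, ⟨π, h⟩, π', h'⟩

theorem sim : SIM := by
  rintro A _ _ _ (⟨a, b, u, h1, h2⟩ | ⟨_, _, c, rfl, rfl, h1, h2⟩)
  · have h0 := km_eval a (.const _ a.F) (fun _ => a.prop) 0 rfl rfl rfl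
    have h3 : IsEval (km a (.const _ a.F) fun _ => a.prop) 1 b
        ((u : _ →ₗ[ℂ] _).comp (evl 1)) := by
      refine ⟨?_, fun x y => ?_, fun x => ?_, fun f x => ?_, fun x => ?_⟩
      · exact Function.Surjective.denseRange fun v =>
          ⟨.const _ (adj u v), DFunLike.congr_fun h2 v⟩
      · change inner ℂ (u (x 1)) (u (y 1)) = inner ℂ (x 1) (y 1)
        rw [← adjoint_inner_right]
        exact congrArg _ (DFunLike.congr_fun h1.iso (y 1))
      · exact DFunLike.congr_fun h1.γ (x 1)
      · exact DFunLike.congr_fun (h1.ρ f) (x 1)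
      · exact DFunLike.congr_fun h1.F (x 1)
    exact hty h0 h3
  · have h3 : ∀ t, IsFredholm (c 0).γ (c 0).ρ ((⟨_, h2⟩ : C(unitInterval, _)) t) := fun t => by
      rw [← (h1 t).1, ← (h1 t).2]
      exact (c t).prop
    have h4 := km_eval (c := c 0) (c 0) ⟨_, h2⟩ h3 0 rfl rfl rfl
    have h5 := km_eval (c := c 1) (c 0) ⟨_, h2⟩ h3 1 (h1 1).1 (h1 1).2 rfl
    exact hty h4 h5

end

end Vale.Agent.P212H86
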